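import Vale.Agent.P261Z.Top.Spec
import Vale.Agent.P261Z.Ig.Model
import Vale.Agent.P261Z.Ig.FD
import Vale.Agent.P261Z.P.Fin
import Vale.Agent.P261Z.L.Spec

/-!
# P261Z, top level: block A from the Igusa data, the bridge and block P
-/

noncomputable section

open MvPowerSeries

namespace P261.Top

open Vale.Agent.P251.F Vale.Agent.P261Z Vale.Agent.P261Z.N P261.Ser P261.Ser.SA P261.C2 P261.Ig

variable (p : ℕ) [hp : Fact p.Prime]

/-- the formal data of the concrete model -/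
def StFD : Prop := ∀ (h c : ℕ) (h1 : 1 ≤ h) (hc : 0 < c) (G : Type) [Group G] [TopologicalSpace G]
  (K : Type) [Field K] [Pf p K] [IsAlgClosed K] (A : RG p h c G K) (Θ : TGd A h1),
  ∃ I : FD A hc (AA p h c K) (Gam p (Fin c) h K), I.gg = Phi Θ ∧ I.ga = gam p h c K ∧
    I.a = cen p (Fin c) h K ∧ I.Gs = Gs p (Fin c) h K

/-- the Igusa data of the concrete model -/
abbrev IgM {h c : ℕ} {h1 : 1 ≤ h} (hc : 0 < c) {G : Type} [Group G] [TopologicalSpace G]
    {K : Type} [Field K] [Pf p K] [Algebra (ZMod p) K] {A : RG p h c G K} (Θ : TGd A h1)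
    (H : PC.GF p) : Type 1 :=
  P.IgD p h (X ⟨0, hc⟩ : N.RR c K) (AA p h c K) (fun g => A.ph g) (Phi Θ) (Gam p (Fin c) h K) H

/-- the Igusa data exist and all lines have invariant generators -/
def StIG : Prop := ∀ (h c : ℕ) (h1 : 1 ≤ h) (hc : 0 < c) (k : Type) [Field k]
  (D : LTD p (h + c) k), IsHz p D → ∀ (K : Type) [Field K] [Pf p K] [CharP K p] [IsAlgClosed K]
  [Algebra (ZMod p) K] (ι : k →+* K) (A : RG p h c D.GG K), IsT D ι A → ∀ Θ : TGd A h1,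
  ∃ (H : PC.GF p) (I : IgM p hc Θ H), I.γ = gam p h c K ∧ I.a = cen p (Fin c) h K ∧
    ∀ l, Line D ι A h1 l → ∃ s s', I.Gen (val l) s s'

/-- the complex of the concrete model is good -/
def StGD : Prop := StL p (ZMod p) → ∀ (h c : ℕ) (h1 : 1 ≤ h) (hc : 0 < c) (k : Type) [Field k]
  (D : LTD p (h + c) k), IsHz p D → ∀ (K : Type) [Field K] [Pf p K] [CharP K p] [IsAlgClosed K]
  [Algebra (ZMod p) K] (ι : k →+* K) (A : RG p h c D.GG K), IsT D ι A → ∀ (Θ : TGd A h1)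
  (H : PC.GF p) (I : IgM p hc Θ H), I.γ = gam p h c K → I.a = cen p (Fin c) h K →
  ∃ F : P.FlD p (X ⟨0, hc⟩ : N.RR c K) I.vi (fun g => Phi Θ g) fun δ => I.γ δ,
    (P.fa I F (NM.nf (Φ := fun g => Phi Θ g) (V Θ) (V_rho Θ) NM.pbs_ser)).Good (p ^ h)

variable {p}

/-- **Block A** from its parts -/
theorem stA'_of (hL : StL p (ZMod p)) (hT : TG p) (hI : StIG p) (hG : StGD p) (hN : P.NVL p) :
    StA' p := by
  intro n h c k K _ _ _ _ D hD ι hh hc hn A hA l hl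
  subst hn
  let : Algebra (ZMod p) K := ZMod.algebra K p
  have : Pf p K := Pf.of_charP
  obtain ⟨Θ⟩ := hT h c hh k D hD K ι A hA
  obtain ⟨H, I, e1, e2, hs⟩ := hI h c hh hc k D hD K ι A hA Θ
  obtain ⟨F, hF⟩ := hG hL h c hh hc k D hD K ι A hA Θ H I e1 e2
  obtain ⟨s, s', hs⟩ := hs l hl
  exact P.stP (A := NM.ofSA (sa A hh) (ZMod p)) ⟨rfl, fun _ => rfl, fun _ _ => rfl⟩ (V Θ) hN
    (V_rho Θ) NM.pbs_ser hh (phi_v A hh hc) (fun _ _ => rfl) I F hF l hs

end P261.Top
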