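import Vale.Agent.P261Z.Ser.RGsa
import Vale.Agent.P261Z.Ser.Dual
import Vale.Agent.P261Z.Ser.BVK
import Vale.Agent.P261Z.N.All
import Vale.Agent.P261Z.T1.DefsG

/-!
# P261Z, top level: the statements of the blocks A and D
-/

noncomputable section

open MvPowerSeries

namespace P261.Top

open Vale.Agent.P251.F Vale.Agent.P261Z Vale.Agent.P261Z.N P261.Ser P261.Ser.SA

variable {p : ℕ} [hp : Fact p.Prime]

/-- the lines `ω ^ a ⊗ Ω ^ b ⊗ Norm ^ i` -/
def Line {n h c : ℕ} {k K : Type} [Field k] [Field K] [CharP K p] (D : LTD p n k) (ι : k →+* K)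
    (A : RG p h c D.GG K) (hh : 1 ≤ h) (l : (sa A hh).Coc) : Prop :=
  ∃ (a b : ℤ) (i : ℕ), ∀ g, val l g =
    ((A.t g ^ a * (sa A hh).J.1 g ^ b : (N.RR c K)ˣ) : N.RR c K) *
      C (ι (g.cf 1 ^ (i * ((p ^ n - 1) / (p - 1)))))

variable (p)

/-- block A: the statement (BV) for all lines -/
def StA : Prop := ∀ (n h c : ℕ) (k K : Type) [Field k] [Field K] [CharP K p] (D : LTD p n k),
  IsHz p D → ∀ (ι : k →+* K) (hh : 1 ≤ h) (hc : 0 < c), h + c = n → ∀ A : RG p h c D.GG K,
    IsT D ι A → ∀ l, Line D ι A hh l →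
      (sa A hh).BV p (X ⟨0, hc⟩) ((sa A hh).bc ⟨0, hc⟩) l

/-- block A over algebraically closed fields -/
def StA' : Prop := ∀ (n h c : ℕ) (k K : Type) [Field k] [Field K] [CharP K p] [IsAlgClosed K]
  (D : LTD p n k), IsHz p D → ∀ (ι : k →+* K) (hh : 1 ≤ h) (hc : 0 < c), h + c = n →
    ∀ A : RG p h c D.GG K, IsT D ι A → ∀ l, Line D ι A hh l →
      (sa A hh).BV p (X ⟨0, hc⟩) ((sa A hh).bc ⟨0, hc⟩) l

/-- block D when the group has no element of order `p` -/
def StD1 : Prop := StA p → p ≠ 2 → ∀ (n : ℕ) (k : Type) [Field k] (D : LTD p n k), IsHz p D →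
  1 ≤ n → ¬(p - 1) ∣ n → T1.FinG D

variable {p}

theorem pderiv_map {K K' : Type} [Field K] [Field K'] {c : ℕ} (io : K →+* K') (j : Fin c)
    (x : N.RR c K) : pderiv K' j (MvPowerSeries.map io x) = MvPowerSeries.map io (pderiv K j x) := by
  ext d
  simp only [coeff_pderiv, coeff_map, map_mul, map_add, map_natCast, map_one]

theorem stA_of (H : StA' p) : StA p := by
  intro n h c k K _ _ _ D hD ι hh hc hn A hT l ⟨a, b, i, hl⟩
  let K' := AlgebraicClosure K
  let io : K →+* K' := algebraMap K K'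
  obtain ⟨A', hT'⟩ := All.rgex p n k D hD h c hh hn K' (io.comp ι)
  have hC := All.chg p n k D hD h c h c hh hn hh hn K K' ι (io.comp ι) A A' hT hT' io
    (MvPowerSeries.map io) rfl (fun a => map_C _ _) (fun j => by rw [exh_add, map_X]) le_rfl
  have hφ : ∀ g r, A'.phi g (MvPowerSeries.map io r) = MvPowerSeries.map io (A.phi g r) :=
    fun g r => (RingHom.congr_fun (hC g).1 r).symm
  have ht : Rel io (tc A hh) (tc A' hh) := fun g => by
    rw [val_tc, val_tc, A.t_val, A'.t_val, ← (hC g).2, InvSeries.c_map]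
  have hb : ∀ j, Rel io ((sa A hh).bc j) ((sa A' hh).bc j) := fun j => ht.pow _
  have hJ : Rel io (sa A hh).J (sa A' hh).J := fun g => by
    rw [val_J, val_J, RingHom.map_det]
    congr 1
    ext1 i j
    change pderiv K' j (A'.phi g (X i)) = MvPowerSeries.map io (pderiv K j (A.phi g (X i)))
    rw [← pderiv_map, ← hφ, map_X]
  let u : (N.RR c K)ˣ →* (N.RR c K')ˣ := Units.map (MvPowerSeries.map io).toMonoidHom
  let l' : (sa A' hh).Coc := ⟨fun g => u (l.1 g), fun g g' => by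
    change MvPowerSeries.map io (val l (g * g')) =
      MvPowerSeries.map io (val l g) * A'.phi g (MvPowerSeries.map io (val l g'))
    rw [val_coc, map_mul, hφ]
    rfl, (lCm_iff _).2 fun d => ((lCm_iff _).1 l.2.2 d).comp io⟩
  refine bv_of (S := sa A hh) (S' := sa A' hh) (io := io) hφ hb (hb _) (l' := l') (fun _ => rfl) ?_
  rw [map_X]
  refine H n h c k K' D hD (io.comp ι) hh hc hn A' hT' l' ⟨a, b, i, fun g => ?_⟩
  have e1 : A'.t g = u (A.t g) := Units.ext (ht g)
  have e2 : (sa A' hh).J.1 g = u ((sa A hh).J.1 g) := Units.ext (hJ g)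
  rw [e1, e2, ← map_zpow, ← map_zpow, ← map_mul]
  change MvPowerSeries.map io (val l g) = MvPowerSeries.map io _ * _
  rw [hl, map_mul, map_C]
  rfl

end P261.Top
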