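import Vale.Agent.P261Z.Top.All1
import Vale.Agent.P261Z.Ig.Td

/-!
# P261Z, top level: the `K(n)`-local sphere is of finite type
-/

namespace P261.Top

open Vale.Agent.P251 Vale.Agent.P261Z

theorem stTD (p : ℕ) [Fact p.Prime] : StTD p :=
  fun h c _ _ _ _ _ _ _ _ _ _ _ _ _ _ _ _ _ I hB _ _ _ _ hM _ =>
    Ig.FD.td hB hM _ (Ig.gc p h c I.hh)

theorem ftAll {p n : ℕ} [Fact p.Prime] (hn : 1 ≤ n) (T : St.SHCat) (S : St.Susp T) :
    T1.FT S p n := ftAll_of_td (stTD p) hn T S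

end P261.Top
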