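import Vale.Agent.P261Z.Top.Spec2
import Vale.Agent.P261Z.L3.All
import Vale.Agent.P261Z.C2.All
import Vale.Agent.P261Z.C2.TGa
import Vale.Agent.P261Z.P.All
import Vale.Agent.P261Z.Ig.All0
import Vale.Agent.P261Z.Ig.Fd2

/-!
# P261Z, top level: block A from the torsors
-/

namespace P261.Top

variable {p : ℕ} [hp : Fact p.Prime]

theorem stA_of_td (hD : StTD p) : StA p :=
  stA_of (stA'_of (L3.stL inferInstance) C2.tg (stIG_of hD (Ig.stFD p))
    (C2.stGD (L3.sh inferInstance)) (P.nvl_all p))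

end P261.Top
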