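import Vale.Agent.P261Z.Top.Full2
import Vale.Agent.P261Z.D.FinX

/-!
# P261Z, top level: finite type for all primes and heights from block A
-/

namespace P261.Top

open Vale.Agent.P251 Vale.Agent.P261Z

variable {p : ℕ} [hp : Fact p.Prime]

theorem stFX : StFX p := fun hA _ _ _ _ hD hn _ _ _ hc hμ => D.finX hA hD hn le_rfl hc hμ

/-- **Finite type** for all primes and heights, from block A -/
theorem ftA (hA : StA p) {n : ℕ} (hn : 1 ≤ n) (T : St.SHCat) (S : St.Susp T) : T1.FT S p n :=
  ftAll_of' stFX hA hn T S

/-- the same from block A over algebraically closed fields -/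
theorem ftA' (hA : StA' p) {n : ℕ} (hn : 1 ≤ n) (T : St.SHCat) (S : St.Susp T) : T1.FT S p n :=
  ftA (stA_of hA) hn T S

end P261.Top
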