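import Vale.Agent.P261Z.Top.All0
import Vale.Agent.P261Z.Top.Full3

/-!
# P261Z, top level: finite type from the torsors
-/

namespace P261.Top

open Vale.Agent.P251 Vale.Agent.P261Z

theorem ftAll_of_td {p n : ℕ} [hp : Fact p.Prime] (hD : StTD p) (hn : 1 ≤ n) (T : St.SHCat)
    (S : St.Susp T) : T1.FT S p n := ftA (stA_of_td hD) hn T S

end P261.Top
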