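import Vale.Agent.P261Z.Top.Spec
import Vale.Agent.P261Z.X.Fin
import Vale.Agent.P261Z.T2.DMain
import Vale.Agent.P261Z.T2.BEv
import Vale.Agent.P261Z.T3.Mu
import Mathlib.FieldTheory.Finite.GaloisField

/-!
# P261Z, top level: finite type for all primes and heights from block A and two rows
-/

noncomputable section

namespace P261.Top

open Vale.Agent.P251 Vale.Agent.P251.I Vale.Agent.P251.M Vale.Agent.P251.F Vale.Agent.P261Z
  Vale.Agent.P261Z.N CategoryTheory

variable (p : ℕ) [hp : Fact p.Prime]

/-- the cobar models for the powers of the projective spaces -/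
def StXT : Prop := ∀ (T : St.SHCat) (F : SpaceFunctor T.C) (e : F.S.obj CCF ≅ (stdEven T.C).L)
  (D : MUData T.C) (o : Q.Orientation (thK e D.R)), (∀ s, D.ev s = amEv e D.R o s) →
    T3.MUAt D p → ∀ n : ℕ, 1 ≤ n → X.XTall F D p n

/-- the vanishing line and the finiteness with coefficients -/
def StGX : Prop := StA p → ∀ (n : ℕ) (k : Type) [Field k] (D : LTD p n k), IsHz p D → 1 ≤ n →
  X.GX D

variable {p}

/-- **Finite type** for all primes and heights, from block A and the two rows -/
theorem ftAll_of (hX : StXT p) (hG : StGX p) (hA : StA p) {n : ℕ} (hn : 1 ≤ n) (T : St.SHCat)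
    (S : St.Susp T) : T1.FT S p n := by
  have := locallySmall_self.{0} T.C
  obtain ⟨D, hD, h1, -, o, ho⟩ :=
    T3.exists_mu_full S.toSpaceFunctor (M.lineIso S.toSpaceFunctor)
  obtain ⟨E, hE⟩ := All.exd p n (GaloisField p n) (by omega) (GaloisField.card p n (by omega))
  exact X.ft_of_delta S hD (h1 p hp.out) hn (hX T _ _ D o ho (h1 p hp.out) n hn) (T2.evcp _)
    (Dl.delta _) E (hG hA n _ E hE hn)

end P261.Top
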