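import Vale.Agent.P261Z.Top.Full
import Vale.Agent.P261Z.T2.BMain
import Vale.Agent.P261Z.T2.BCls
import Vale.Agent.P261Z.T2.BCos
import Vale.Agent.P261Z.T2.BEs
import Vale.Agent.P261Z.T2.BKap
import Vale.Agent.P261Z.T2.BPer
import Vale.Agent.P261Z.T2.BSq
import Vale.Agent.P261Z.T3.GNorm

/-!
# P261Z, top level: the cobar models, and the reduction of the group side to `FinX`
-/

noncomputable section

namespace P261.Top

open Vale.Agent.P251 Vale.Agent.P251.I Vale.Agent.P251.M Vale.Agent.P251.F Vale.Agent.P261Z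
  Vale.Agent.P261Z.N CategoryTheory

variable (p : ℕ) [hp : Fact p.Prime]

theorem stXT : StXT p := by
  intro T F e D o ho hD n hn U C i δ hC Dk L r m
  obtain ⟨Φ, h1, h2⟩ := T2.xt_of_rows (o := o) (U := U) (F := L) (B := Fin r) (m := m) ho T2.cos
    (T2.cls e _ _) (T2.free e _ _ (T2.sq T.C) (T2.per _) (T2.cls e _ _)) (T2.es D U C L)
    (T2.kap_row D U C L) hD hC (T3.e1C_MPAt D hD hC hn Dk L)
  exact ⟨⟨h2, Φ, fun w s σ x j => h1 w σ s x j⟩⟩

/-- the finiteness with coefficients -/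
def StFX : Prop := StA p → ∀ (n : ℕ) (k : Type) [Field k] (D : LTD p n k), IsHz p D → 1 ≤ n →
  ∀ (r : ℕ) (c : MonoidAlgebra ℤ (Equiv.Perm (Fin r))) (μ : ℤ), JM.IsIdem p (T3.bnd D) c μ →
    (p : ℤ) ∣ μ - 1 → X.FinX D (T3.bnd D) c

variable {p}

theorem stGX_of (h : StFX p) : StGX p := fun hA n k _ D hD hn =>
  ⟨T3.bnd D, T3.one_le_bnd D, fun r c μ hc hμ =>
    ⟨T3.vanX D le_rfl hc, h hA n k D hD hn r c μ hc hμ⟩⟩

/-- **Finite type** for all primes and heights, from block A and the finiteness with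
coefficients -/
theorem ftAll_of' (h : StFX p) (hA : StA p) {n : ℕ} (hn : 1 ≤ n) (T : St.SHCat)
    (S : St.Susp T) : T1.FT S p n :=
  ftAll_of (stXT p) (stGX_of h) hA hn T S

end P261.Top
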